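import Vale.Agent.P052.Main

theorem Vale.Agent.Results.P052.A_dim9.result :
    ∀ d : ℕ, 9 ≤ d → ∃ Y : Set (EuclideanSpace ℝ (Fin d)),
      Bornology.IsBounded Y ∧ 0 < Metric.diam Y ∧
        ¬ ∃ P : Fin (d + 1) → Set (EuclideanSpace ℝ (Fin d)),
          (⋃ i, P i) = Y ∧ ∀ i, Metric.diam (P i) < Metric.diam Y :=
  Vale.Agent.P052.borsuk
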